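import Vale.Agent.P321.R2.H613.Step6

/-! # The triple product relation with a variable bound (exponent six) -/

namespace Vale.Agent.P321.R3.H257

open Complex Finset Vale.Agent.P321.UB Vale.Agent.P321.R2.H613

/-- The triple product relation under the negation of the conclusion of `step7`.
`ω = 1000 κ`, `G = ω² θ² = 0.0366 c`, `c = 19.1 D`. -/
theorem triple7 {n i1 : ℕ} (hi : i1 ≤ n) {f f' : ℕ → ℂ} {D κ0 κ c θ : ℝ}
    (hD : 10 ^ 6 ≤ D) (hf : ∀ i ≤ n, ‖f i‖ ≤ 1) (hf' : ∀ i ≤ n, ‖f' i‖ ≤ 1)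
    (heq : ∀ i < i1, f i = f' i) (hn : (n : ℝ) + 1 ≤ Real.exp (D / 10 ^ 5)) (hκ : 0 < κ)
    (hκκ : 10 ^ 8 * κ ≤ κ0) (hθ : 0 < θ) (hκθ : κ ^ 2 * θ ^ 2 = 0.0366 * c / 10 ^ 6)
    (hc : c = 19.1 * D)
    (hN : ∀ g g' F F' : Fin 3 → ℕ → ℂ, (∀ m, Simple6 f f' (g m) (g' m)) →
      (∀ m, Derived κ (14 * κ0) (g m) (g' m) (F m) (F' m)) →
      ∀ s : ℂ, s.re = 3000 * κ → |s.im| ≤ 13500 * κ →
        ‖NN n i1 (fun i => F 0 i * F 1 i * F 2 i) (fun i => F' 0 i * F' 1 i * F' 2 i) s‖ ≤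
          Real.exp (-(21.25 * D * min 1 (2 - |s.im| / (6900 * κ)))))
    {g g' : Fin 3 → ℕ → ℂ} (hg : ∀ m, Simple6 f f' (g m) (g' m))
    {ξ : Fin 3 → ℝ} (hξ : ∀ m, |ξ m| ≤ 13 * κ0) (hs : |ξ 0 + ξ 1 + ξ 2| ≤ 6 * κ) :
    ‖VV n i1 θ (1000 * κ) (g 0) (ξ 0) * VV n i1 θ (1000 * κ) (g 1) (ξ 1) *
        VV n i1 θ (1000 * κ) (g 2) (ξ 2) -
      VV n i1 θ (1000 * κ) (g' 0) (ξ 0) * VV n i1 θ (1000 * κ) (g' 1) (ξ 1) *
        VV n i1 θ (1000 * κ) (g' 2) (ξ 2)‖ ≤
      Real.exp (-(c + 2 * (D / 10 ^ 5))) := by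
  set ℓ := D / 10 ^ 5 with hℓ
  have hℓ10 : 10 ≤ ℓ := by rw [hℓ, le_div_iff₀ (by norm_num)]; linarith
  have hDℓ : D = 10 ^ 5 * ℓ := by rw [hℓ]; ring
  have hκ0 : 0 < κ0 := by linarith
  set lam : ℝ := 4498 * κ * θ ^ 2 with hlam
  have hlam0 : 0 < lam := by positivity
  set M : ℝ := Real.exp (5 * ℓ) with hM
  have hM0 : 0 < M := Real.exp_pos _
  set δ : ℝ := Real.exp (-(21.25 * D)) with hδ
  set P : ℝ := M * Real.exp (-(lam * (13500 * κ))) with hP
  set Q : ℝ := M * Real.exp (-(lam * (14 * κ0))) with hQ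
  have hP0 : 0 < P := by positivity
  have hQ0 : 0 < Q := by positivity
  have hδ0 : 0 < δ := Real.exp_pos _
  have hG : κ ^ 2 * θ ^ 2 = 0.0366 * c / 10 ^ 6 := hκθ
  have hcD : c = 1910000 * ℓ := by rw [hc, hDℓ]; ring
  have hlκ : lam * κ = 4498 * (κ ^ 2 * θ ^ 2) := by rw [hlam]; ring
  have hlκD : lam * κ ≤ 21.25 / 6600 * D := by
    rw [hlκ, hG, hcD, hDℓ]
    linarith
  have hMbound : ((n : ℝ) + 1) * (2 * ((n : ℝ) + 1) ^ 3) ≤ M := by
    have h1 : (0 : ℝ) ≤ (n : ℝ) + 1 := by positivity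
    have h2 : (2 : ℝ) ≤ Real.exp ℓ := by
      have := Real.add_one_le_exp ℓ; linarith
    calc ((n : ℝ) + 1) * (2 * ((n : ℝ) + 1) ^ 3)
        ≤ Real.exp ℓ * (Real.exp ℓ * Real.exp ℓ ^ 3) := by gcongr
      _ = M := by
        rw [hM, ← Real.exp_nat_mul, ← Real.exp_add, ← Real.exp_add]; congr 1; push_cast; ring
  -- the variable bound is at most `δ + P * Ph lam y`
  have hvar : ∀ y : ℝ, |y| ≤ 13500 * κ →
      Real.exp (-(21.25 * D * min 1 (2 - |y| / (6900 * κ)))) ≤ δ + P * Ph lam y := by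
    intro y hy
    have hPh := Ph_pos lam y
    have hPP : 0 ≤ P * Ph lam y := by positivity
    rcases le_or_gt |y| (6900 * κ) with h | h
    · have h1 : |y| / (6900 * κ) ≤ 1 := by rw [div_le_one (by positivity)]; exact h
      have h2 : min 1 (2 - |y| / (6900 * κ)) = 1 := min_eq_left (by linarith)
      rw [h2, mul_one]
      linarith
    · have h1 : 1 < |y| / (6900 * κ) := by rw [one_lt_div (by positivity)]; exact h
      have h2 : min 1 (2 - |y| / (6900 * κ)) = 2 - |y| / (6900 * κ) := min_eq_right (by linarith)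
      rw [h2]
      set t : ℝ := |y| / κ with ht
      have hyt : |y| = t * κ := by rw [ht]; field_simp
      have ht1 : 6900 < t := by
        rw [ht, lt_div_iff₀ hκ]; exact h
      have ht2 : t ≤ 13500 := by
        rw [ht, div_le_iff₀ hκ]; exact hy
      have h3 : |y| / (6900 * κ) = t / 6900 := by rw [hyt]; field_simp
      rw [h3]
      have h4 := le_Ph hlam0.le (le_refl |y|)
      have h5 : Real.exp (-(21.25 * D * (2 - t / 6900))) ≤ P * Real.exp (lam * |y|) := by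
        rw [hP, hM, mul_assoc, ← Real.exp_add, ← Real.exp_add]
        apply Real.exp_le_exp.2
        have e1 : lam * |y| = (lam * κ) * t := by rw [hyt]; ring
        have e2 : lam * (13500 * κ) = (lam * κ) * 13500 := by ring
        rw [e1, e2]
        have h6 : (lam * κ) * (13500 - t) ≤ 21.25 / 6600 * D * (13500 - t) :=
          mul_le_mul_of_nonneg_right hlκD (by linarith)
        have h7 : 0 ≤ D * (t - 6900) := mul_nonneg (by linarith) (by linarith)
        nlinarith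
      have h6 := mul_le_mul_of_nonneg_left h4 hP0.le
      linarith
  have key := product_relation6 (n := n) (i1 := i1) hi (ω := 1000 * κ) (κ := κ) (θ := θ)
    (lam := lam) (δ := δ) (P := P) (Q := Q) hκ.le hθ hδ0.le hP0.le hQ0.le
    (f := g) (f' := g') (fun m => (hg m).eq_of heq) ξ (by
      intro o0 o1 o2 s hsre
      have hsre' : s.re = 3000 * κ := by rw [hsre]; ring
      have htriv : ‖NN n i1 (fun i => pick κ o0 (g 0) i * pick κ o1 (g 1) i * pick κ o2 (g 2) i)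
          (fun i => pick κ o0 (g' 0) i * pick κ o1 (g' 1) i * pick κ o2 (g' 2) i) s‖ ≤ M := by
        refine le_trans (norm_NN_mul3_le (n := n) (i1 := i1)
          (F := ![pick κ o0 (g 0), pick κ o1 (g 1), pick κ o2 (g 2)])
          (F' := ![pick κ o0 (g' 0), pick κ o1 (g' 1), pick κ o2 (g' 2)])
          (B' := (n : ℝ) + 1) ?_ ?_ (by rw [hsre']; positivity)) hMbound
        · intro m
          fin_cases m
          · exact norm_pick_le hκ.le o0 ((hg 0).norm_le hf hf').1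
          · exact norm_pick_le hκ.le o1 ((hg 1).norm_le hf hf').1
          · exact norm_pick_le hκ.le o2 ((hg 2).norm_le hf hf').1
        · intro m
          fin_cases m
          · exact norm_pick_le hκ.le o0 ((hg 0).norm_le hf hf').2
          · exact norm_pick_le hκ.le o1 ((hg 1).norm_le hf hf').2
          · exact norm_pick_le hκ.le o2 ((hg 2).norm_le hf hf').2
      have hphO : ∀ o : Option ℝ, 0 ≤ phO lam o := by
        intro o
        cases o with
        | none => exact le_rfl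
        | some y => exact (Ph_pos lam y).le
      have n0 := hphO o0
      have n1 := hphO o1
      have n2 := hphO o2
      have nP : 0 ≤ P * Ph lam s.im := by have := Ph_pos lam s.im; positivity
      have hbig : ∀ o : Option ℝ, (∃ y, o = some y ∧ 14 * κ0 < |y|) → M ≤ Q * phO lam o := by
        rintro o ⟨y, rfl, hy⟩
        have h1 := le_Ph hlam0.le hy.le
        calc M = M * Real.exp (-(lam * (14 * κ0))) * Real.exp (lam * (14 * κ0)) := by
              rw [mul_assoc, ← Real.exp_add]; simp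
          _ ≤ Q * Ph lam y := mul_le_mul_of_nonneg_left h1 hQ0.le
      by_cases hc1 : 13500 * κ < |s.im|
      · have h1 := le_Ph hlam0.le hc1.le
        have h2 : M ≤ P * Ph lam s.im := by
          calc M = M * Real.exp (-(lam * (13500 * κ))) * Real.exp (lam * (13500 * κ)) := by
                rw [mul_assoc, ← Real.exp_add]; simp
            _ ≤ P * Ph lam s.im := mul_le_mul_of_nonneg_left h1 hP0.le
        have : 0 ≤ Q * (phO lam o0 + phO lam o1 + phO lam o2) := by positivity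
        linarith
      push Not at hc1
      by_cases hb0 : ∃ y, o0 = some y ∧ 14 * κ0 < |y|
      · have h1 := hbig o0 hb0
        have h2 : Q * phO lam o0 ≤ Q * (phO lam o0 + phO lam o1 + phO lam o2) :=
          mul_le_mul_of_nonneg_left (by linarith) hQ0.le
        linarith
      by_cases hb1 : ∃ y, o1 = some y ∧ 14 * κ0 < |y|
      · have h1 := hbig o1 hb1
        have h2 : Q * phO lam o1 ≤ Q * (phO lam o0 + phO lam o1 + phO lam o2) :=
          mul_le_mul_of_nonneg_left (by linarith) hQ0.le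
        linarith
      by_cases hb2 : ∃ y, o2 = some y ∧ 14 * κ0 < |y|
      · have h1 := hbig o2 hb2
        have h2 : Q * phO lam o2 ≤ Q * (phO lam o0 + phO lam o1 + phO lam o2) :=
          mul_le_mul_of_nonneg_left (by linarith) hQ0.le
        linarith
      push Not at hb0 hb1 hb2
      have hgen : ∀ (o : Option ℝ) (m : Fin 3), (∀ y, o = some y → |y| ≤ 14 * κ0) →
          Derived κ (14 * κ0) (g m) (g' m) (pick κ o (g m)) (pick κ o (g' m)) := by
        intro o m ho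
        cases o with
        | none => exact Or.inl ⟨rfl, rfl⟩
        | some y => exact Or.inr ⟨y, ho y rfl, rfl, rfl⟩
      have h1 := hN g g' ![pick κ o0 (g 0), pick κ o1 (g 1), pick κ o2 (g 2)]
        ![pick κ o0 (g' 0), pick κ o1 (g' 1), pick κ o2 (g' 2)] hg (by
          intro m
          fin_cases m
          · exact hgen o0 0 hb0
          · exact hgen o1 1 hb1
          · exact hgen o2 2 hb2) s hsre' hc1
      have h2 : 0 ≤ Q * (phO lam o0 + phO lam o1 + phO lam o2) := by positivity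
      have h3 : ‖NN n i1 (fun i => pick κ o0 (g 0) i * pick κ o1 (g 1) i * pick κ o2 (g 2) i)
          (fun i => pick κ o0 (g' 0) i * pick κ o1 (g' 1) i * pick κ o2 (g' 2) i) s‖ ≤
            Real.exp (-(21.25 * D * min 1 (2 - |s.im| / (6900 * κ)))) := h1
      have h4 := hvar s.im hc1
      linarith)
  refine key.trans ?_
  -- numerics
  have eE : 3 * (1000 * κ + κ) ^ 2 * θ ^ 2 = 3.006003 * 0.0366 * c := by
    calc 3 * (1000 * κ + κ) ^ 2 * θ ^ 2 = 3006003 * (κ ^ 2 * θ ^ 2) := by ring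
      _ = _ := by rw [hG]; ring
  have hθ2 : 0 < θ ^ 2 := by positivity
  have elam2 : lam ^ 2 / (2 * θ ^ 2) = 4498 ^ 2 / 2 * (κ ^ 2 * θ ^ 2) := by
    rw [hlam]; field_simp
  have elam3 : 3 * lam ^ 2 / (2 * θ ^ 2) = 3 * 4498 ^ 2 / 2 * (κ ^ 2 * θ ^ 2) := by
    calc 3 * lam ^ 2 / (2 * θ ^ 2) = 3 * (lam ^ 2 / (2 * θ ^ 2)) := by ring
      _ = _ := by rw [elam2]; ring
  have hPh1 : Ph lam (ξ 0 + ξ 1 + ξ 2) ≤ 2 * Real.exp (lam * (6 * κ)) := Ph_le hlam0.le hs
  have hPh2 : ∀ m, Ph lam (ξ m) ≤ 2 * Real.exp (lam * (13 * κ0)) :=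
    fun m => Ph_le hlam0.le (hξ m)
  set Tgt := Real.exp (-(c + 2 * ℓ)) with hTgt
  have hTgt0 : 0 < Tgt := Real.exp_pos _
  have h22000 : (1000 : ℝ) ≤ Real.exp ℓ := by
    have h1 : Real.exp 10 ≤ Real.exp ℓ := Real.exp_le_exp.2 hℓ10
    have h2 : Real.exp 10 = Real.exp 1 ^ 10 := by rw [← Real.exp_nat_mul]; norm_num
    have h3 : (2 : ℝ) ^ 10 ≤ Real.exp 1 ^ 10 :=
      pow_le_pow_left₀ (by norm_num) (by linarith [Real.exp_one_gt_d9]) 10
    rw [h2] at h1
    norm_num at h3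
    linarith
  -- first term
  have t1 : Real.exp (3.006003 * 0.0366 * c) * δ ≤ Tgt * Real.exp (-ℓ) := by
    rw [hδ, hTgt, ← Real.exp_add, ← Real.exp_add]
    apply Real.exp_le_exp.2
    rw [hcD, hDℓ]
    linarith
  -- second term
  have t2 : Real.exp (3.006003 * 0.0366 * c) *
      (P * (Real.exp (3 * lam ^ 2 / (2 * θ ^ 2)) * (2 * Real.exp (lam * (6 * κ))))) ≤
      2 * (Tgt * Real.exp (-ℓ)) := by
    have e1 : Real.exp (3.006003 * 0.0366 * c) *
      (P * (Real.exp (3 * lam ^ 2 / (2 * θ ^ 2)) * (2 * Real.exp (lam * (6 * κ))))) =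
      2 * Real.exp (3.006003 * 0.0366 * c + 5 * ℓ - lam * (13500 * κ) +
        3 * lam ^ 2 / (2 * θ ^ 2) + lam * (6 * κ)) := by
      rw [hP, hM, Real.exp_add, Real.exp_add, Real.exp_sub, Real.exp_add, Real.exp_neg]
      field_simp
    rw [e1, hTgt, ← Real.exp_add]
    apply mul_le_mul_of_nonneg_left _ (by norm_num)
    apply Real.exp_le_exp.2
    have e2 : 3.006003 * 0.0366 * c + 5 * ℓ - lam * (13500 * κ) + 3 * lam ^ 2 / (2 * θ ^ 2) +
        lam * (6 * κ) = 3.006003 * 0.0366 * c + 5 * ℓ - 13494 * (lam * κ) +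
          3 * lam ^ 2 / (2 * θ ^ 2) := by ring
    rw [e2, elam3, hlκ, hG, hcD]
    linarith
  -- third term
  have t3 : Real.exp (3.006003 * 0.0366 * c) *
      (Q * (Real.exp (lam ^ 2 / (2 * θ ^ 2)) * (2 * Real.exp (lam * (13 * κ0)) +
        2 * Real.exp (lam * (13 * κ0)) + 2 * Real.exp (lam * (13 * κ0))))) ≤
      6 * (Tgt * Real.exp (-ℓ)) := by
    have e1 : Real.exp (3.006003 * 0.0366 * c) *
      (Q * (Real.exp (lam ^ 2 / (2 * θ ^ 2)) * (2 * Real.exp (lam * (13 * κ0)) +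
        2 * Real.exp (lam * (13 * κ0)) + 2 * Real.exp (lam * (13 * κ0))))) =
      6 * Real.exp (3.006003 * 0.0366 * c + 5 * ℓ - lam * (14 * κ0) + lam ^ 2 / (2 * θ ^ 2) +
        lam * (13 * κ0)) := by
      rw [hQ, hM, Real.exp_add, Real.exp_add, Real.exp_sub, Real.exp_add, Real.exp_neg]
      field_simp
      ring
    rw [e1, hTgt, ← Real.exp_add]
    apply mul_le_mul_of_nonneg_left _ (by norm_num)
    apply Real.exp_le_exp.2
    have e2 : 3.006003 * 0.0366 * c + 5 * ℓ - lam * (14 * κ0) + lam ^ 2 / (2 * θ ^ 2) +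
        lam * (13 * κ0) = 3.006003 * 0.0366 * c + 5 * ℓ - lam * κ0 + lam ^ 2 / (2 * θ ^ 2) := by
      ring
    have e3 : 10 ^ 8 * (lam * κ) ≤ lam * κ0 := by
      calc 10 ^ 8 * (lam * κ) = lam * (10 ^ 8 * κ) := by ring
        _ ≤ lam * κ0 := mul_le_mul_of_nonneg_left hκκ hlam0.le
    rw [hlκ, hG, hcD] at e3
    rw [e2, elam2, hG, hcD]
    linarith
  have hA1 : Real.exp (3 * (1000 * κ + κ) ^ 2 * θ ^ 2) *
      (δ + P * (Real.exp (3 * lam ^ 2 / (2 * θ ^ 2)) * Ph lam (ξ 0 + ξ 1 + ξ 2)) +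
        Q * (Real.exp (lam ^ 2 / (2 * θ ^ 2)) * (Ph lam (ξ 0) + Ph lam (ξ 1) + Ph lam (ξ 2)))) ≤
      9 * (Tgt * Real.exp (-ℓ)) := by
    rw [eE]
    have a1 : P * (Real.exp (3 * lam ^ 2 / (2 * θ ^ 2)) * Ph lam (ξ 0 + ξ 1 + ξ 2)) ≤
        P * (Real.exp (3 * lam ^ 2 / (2 * θ ^ 2)) * (2 * Real.exp (lam * (6 * κ)))) := by
      gcongr
    have a2 : Q * (Real.exp (lam ^ 2 / (2 * θ ^ 2)) * (Ph lam (ξ 0) + Ph lam (ξ 1) +
        Ph lam (ξ 2))) ≤ Q * (Real.exp (lam ^ 2 / (2 * θ ^ 2)) * (2 * Real.exp (lam * (13 * κ0)) +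
        2 * Real.exp (lam * (13 * κ0)) + 2 * Real.exp (lam * (13 * κ0)))) := by
      have b0 := hPh2 0
      have b1 := hPh2 1
      have b2 := hPh2 2
      gcongr
    have a3 : 0 < Real.exp (3.006003 * 0.0366 * c) := Real.exp_pos _
    have a4 := mul_le_mul_of_nonneg_left (add_le_add (add_le_add_right a1 δ) a2) a3.le
    refine a4.trans ?_
    rw [mul_add, mul_add]
    linarith
  calc _ ≤ 7 * (9 * (Tgt * Real.exp (-ℓ))) := mul_le_mul_of_nonneg_left hA1 (by norm_num)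
    _ = Tgt * (63 * Real.exp (-ℓ)) := by ring
    _ ≤ Tgt * 1 := by
        apply mul_le_mul_of_nonneg_left _ hTgt0.le
        rw [Real.exp_neg, ← div_eq_mul_inv, div_le_one (Real.exp_pos _)]
        linarith
    _ = Tgt := mul_one _

end Vale.Agent.P321.R3.H257
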